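import Vale.Agent.P159.TM.H708.Mono
import Vale.Agent.P159.R2.H254.Link

/-!
Row MONO of P159, second part: factors which are products of mixtures of cosines (edges, pins,
masses, hard pins) lower all exponential and second moments.
-/

open MeasureTheory Filter Topology

namespace Vale.Agent.P159.TM.H708

open Vale.Agent.P159 Vale.Agent.P159.H353 Vale.Agent.P159.R2.H254 Vale.Agent.P159.T1.H934
  Vale.Agent.P159.TM.H22

/-- `exp(-v x²/2)` is the Gaussian mean of `cos (t x)` -/
lemma gauss_cos (v : NNReal) (x : ℝ) :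
    ∫ t, Real.cos (t * x) ∂(ProbabilityTheory.gaussianReal 0 v) =
      Real.exp (-(v * x ^ 2 / 2)) := by
  have h1 := ProbabilityTheory.charFun_gaussianReal (μ := 0) (v := v) x
  rw [charFun_apply_real] at h1
  have h2 : Integrable (fun t : ℝ => Complex.exp (x * t * Complex.I))
      (ProbabilityTheory.gaussianReal 0 v) := by
    refine Integrable.of_bound (C := 1) (by fun_prop) (Eventually.of_forall fun t => ?_)
    have : (x * t * Complex.I : ℂ) = ((x * t : ℝ) : ℂ) * Complex.I := by push_cast; ring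
    rw [this, Complex.norm_exp_ofReal_mul_I]
  have h3 := congrArg Complex.re h1
  have h4 : (∫ t : ℝ, Complex.exp (x * t * Complex.I)
      ∂(ProbabilityTheory.gaussianReal 0 v)).re =
      ∫ t : ℝ, (Complex.exp (x * t * Complex.I)).re ∂(ProbabilityTheory.gaussianReal 0 v) :=
    (integral_re h2).symm
  rw [h4] at h3
  have h5 : ∀ t : ℝ, (Complex.exp (x * t * Complex.I)).re = Real.cos (t * x) := by
    intro t
    have : (x * t * Complex.I : ℂ) = ((t * x : ℝ) : ℂ) * Complex.I := by push_cast; ring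
    rw [this, Complex.exp_ofReal_mul_I_re]
  simp only [h5] at h3
  rw [h3]
  have h6 : (x * (0 : ℝ) * Complex.I - v * x ^ 2 / 2 : ℂ) = ((-(v * x ^ 2 / 2) : ℝ) : ℂ) := by
    push_cast; ring
  rw [h6, ← Complex.ofReal_exp, Complex.ofReal_re]

section pd

variable {V : Type} [Fintype V]

/-- mixture of cosines -/
noncomputable def mx (μ : Measure ℝ) (r : V → ℝ) (h : V → ℤ) : ℝ :=
  ∫ t, Real.cos (t * lf r h) ∂μ

/-- products of mixtures of cosines -/
inductive PD : ((V → ℤ) → ℝ) → Prop
  | one : PD fun _ => 1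
  | mul {ψ : (V → ℤ) → ℝ} (hψ : PD ψ) (μ : Measure ℝ) (hμ : IsFiniteMeasure μ) (r : V → ℝ) :
      PD fun h => ψ h * mx μ r h

lemma mx_bdd (μ : Measure ℝ) [IsFiniteMeasure μ] (r : V → ℝ) (h : V → ℤ) :
    |mx μ r h| ≤ (μ Set.univ).toReal := by
  have h1 : |mx μ r h| ≤ ∫ _, (1 : ℝ) ∂μ := by
    unfold mx
    rw [← Real.norm_eq_abs]
    refine norm_integral_le_of_norm_le (integrable_const _) (Eventually.of_forall fun t => ?_)
    rw [Real.norm_eq_abs]
    exact Real.abs_cos_le_one _
  refine h1.trans_eq ?_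
  rw [integral_const, smul_eq_mul, mul_one]
  rfl

lemma fub {u : (V → ℤ) → ℝ} (hu : Summable fun h => |u h|) (μ : Measure ℝ) [IsFiniteMeasure μ]
    (r : V → ℝ) :
    (Integrable (fun t => ∑' h, u h * Real.cos (t * lf r h)) μ) ∧
      ∫ t, (∑' h, u h * Real.cos (t * lf r h)) ∂μ = ∑' h, u h * mx μ r h := by
  have hb : ∀ h t, ‖u h * Real.cos (t * lf r h)‖ ≤ |u h| := fun h t => by
    rw [Real.norm_eq_abs, abs_mul]
    exact mul_le_of_le_one_right (abs_nonneg _) (Real.abs_cos_le_one _)
  have hc : Continuous fun t => ∑' h, u h * Real.cos (t * lf r h) :=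
    continuous_tsum (fun h => by fun_prop) hu hb
  have hi : ∀ h, Integrable (fun t => u h * Real.cos (t * lf r h)) μ := fun h =>
    Integrable.of_bound (C := |u h|) (by fun_prop) (Eventually.of_forall (hb h))
  constructor
  · refine Integrable.of_bound (C := ∑' h, |u h|) hc.aestronglyMeasurable
      (Eventually.of_forall fun t => ?_)
    exact tsum_of_norm_bounded hu.hasSum fun h => hb h t
  · rw [← integral_tsum_of_summable_integral_norm hi ?_]
    · refine tsum_congr fun h => ?_
      rw [integral_const_mul]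
      rfl
    · refine Summable.of_nonneg_of_le (fun h => integral_nonneg fun x => norm_nonneg _)
        (fun h => ?_) (hu.mul_right (μ Set.univ).toReal)
      calc ∫ t, ‖u h * Real.cos (t * lf r h)‖ ∂μ ≤ ∫ _, |u h| ∂μ :=
            integral_mono (hi h).norm (integrable_const _) (hb h)
        _ = |u h| * (μ Set.univ).toReal := by
            rw [integral_const, smul_eq_mul, mul_comm]
            rfl

lemma PD.bdd {ψ : (V → ℤ) → ℝ} (hψ : PD ψ) : ∃ C : ℝ, ∀ h, |ψ h| ≤ C := by
  induction hψ with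
  | one => exact ⟨1, fun h => by simp⟩
  | mul hψ μ hμ r ih =>
    obtain ⟨C, hC⟩ := ih
    refine ⟨C * (μ Set.univ).toReal, fun h => ?_⟩
    rw [abs_mul]
    exact mul_le_mul (hC h) (mx_bdd μ r h) (abs_nonneg _) ((abs_nonneg _).trans (hC h))

lemma PD.gr {ψ : (V → ℤ) → ℝ} (hψ : PD ψ) : Gr ψ := by
  obtain ⟨C, hC⟩ := hψ.bdd
  exact Gr.of_bdd hC

lemma PD.mul_pd {ψ χ : (V → ℤ) → ℝ} (hψ : PD ψ) (hχ : PD χ) : PD fun h => ψ h * χ h := by
  induction hχ with
  | one => simpa using hψ
  | mul hχ μ hμ r ih =>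
    have := PD.mul ih μ hμ r
    simpa only [mul_assoc] using this

/-- a cosine mixture is such a factor -/
lemma PD.mix (μ : Measure ℝ) [hμ : IsFiniteMeasure μ] (r : V → ℝ) : PD (mx μ r) := by
  have := PD.mul (PD.one (V := V)) μ hμ r
  simpa only [one_mul] using this

lemma PD.prod {ι : Type*} (s : Finset ι) {ψ : ι → (V → ℤ) → ℝ} (hψ : ∀ i ∈ s, PD (ψ i)) :
    PD fun h => ∏ i ∈ s, ψ i h := by
  classical
  induction s using Finset.induction_on with
  | empty => simpa using PD.one (V := V)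
  | insert a s ha ih =>
    have h1 := (hψ a (Finset.mem_insert_self a s)).mul_pd
      (ih fun i hi => hψ i (Finset.mem_insert_of_mem hi))
    have e : (fun h : V → ℤ => ∏ i ∈ insert a s, ψ i h) = fun h => ψ a h * ∏ i ∈ s, ψ i h := by
      funext h
      rw [Finset.prod_insert ha]
    rw [e]
    exact h1

lemma wI_zl (n : ℤ) : wI 0 n = if n = 0 then 1 else 0 := by
  unfold wI
  rw [neg_zero, Real.exp_zero, one_mul, tsum_eq_single 0]
  · split_ifs with h
    · subst h; simp
    · have : (2 * 0).choose (0 + n.natAbs) = 0 := Nat.choose_eq_zero_of_lt (by omega)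
      rw [this]; simp
  · intro k hk
    rw [zero_div, zero_pow hk]
    simp

/-- Gaussian factor of a linear functional -/
lemma PD.gauss {v : ℝ} (hv : 0 ≤ v) (r : V → ℝ) :
    PD fun h : V → ℤ => Real.exp (-(v * (lf r h) ^ 2 / 2)) := by
  obtain ⟨w, hw⟩ : ∃ w : NNReal, (w : ℝ) = v := ⟨⟨v, hv⟩, rfl⟩
  have h1 := PD.mix (V := V) (ProbabilityTheory.gaussianReal 0 w) r
  have e : (mx (ProbabilityTheory.gaussianReal 0 w) r : (V → ℤ) → ℝ) =
      fun h : V → ℤ => Real.exp (-(v * (lf r h) ^ 2 / 2)) := by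
    funext h
    rw [← hw]
    exact gauss_cos w (lf r h)
  rwa [e] at h1

/-- Bessel factor of an integer linear form -/
lemma PD.bessel {b : ℝ} (hb : 0 ≤ b) (n : (V → ℤ) → ℤ) (r : V → ℝ)
    (hn : ∀ h, (n h : ℝ) = lf r h) : PD fun h : V → ℤ => wI b (n h) := by
  set ρ : ℝ → ℝ := fun x => (2 * Real.pi)⁻¹ * Real.exp (b * Real.cos x) with hρ
  have hρ0 : ∀ x, 0 ≤ ρ x := fun x => by
    simp only [hρ]
    have := Real.pi_pos
    positivity
  have hρc : Continuous ρ := by
    simp only [hρ]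
    fun_prop
  set μ : Measure ℝ := (volume.restrict (Set.Ioc 0 (2 * Real.pi))).withDensity
    (fun x => ENNReal.ofReal (ρ x)) with hμ
  have hint : Integrable ρ (volume.restrict (Set.Ioc 0 (2 * Real.pi))) := by
    have h1 : IntervalIntegrable ρ volume 0 (2 * Real.pi) := hρc.intervalIntegrable _ _
    exact h1.1
  have : IsFiniteMeasure μ := isFiniteMeasure_withDensity_ofReal hint.2
  have h1 := PD.mix (V := V) μ r
  have e : (mx μ r : (V → ℤ) → ℝ) = fun h : V → ℤ => wI b (n h) := by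
    funext h
    rw [← bes_eq hb]
    unfold mx bes
    rw [hμ, integral_withDensity_eq_integral_toReal_smul (by fun_prop)
      (Eventually.of_forall fun x => ENNReal.ofReal_lt_top),
      intervalIntegral.integral_of_le (by have := Real.pi_pos; positivity),
      ← integral_const_mul]
    refine integral_congr_ae (Eventually.of_forall fun x => ?_)
    simp only [smul_eq_mul]
    rw [ENNReal.toReal_ofReal (hρ0 x), ← hn h, mul_comm x]
    simp only [hρ]
    ring
  rwa [e] at h1

/-- hard pin at one site -/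
lemma PD.pin (x : V) : PD fun h : V → ℤ => if h x = 0 then (1 : ℝ) else 0 := by
  classical
  have h1 := PD.bessel (V := V) (b := 0) le_rfl (fun h => h x) (Pi.single x 1) (fun h => by
    unfold lf
    rw [Finset.sum_eq_single x]
    · simp
    · intro y _ hy
      rw [Pi.single_eq_of_ne hy, zero_mul]
    · intro hx
      exact absurd (Finset.mem_univ x) hx)
  simpa only [wI_zl] using h1

lemma PD.iX (X : Set V) : PD (iX X : (V → ℤ) → ℝ) := by
  classical
  have h1 := PD.prod (V := V) (Finset.univ.filter fun x => x ∈ X)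
    (ψ := fun x h => if h x = 0 then (1 : ℝ) else 0) fun x _ => PD.pin x
  have e : (fun h : V → ℤ => ∏ x ∈ Finset.univ.filter fun x => x ∈ X,
      if h x = 0 then (1 : ℝ) else 0) = H708.iX X := by
    funext h
    unfold H708.iX
    by_cases h1 : ∀ x ∈ X, h x = 0
    · rw [if_pos h1]
      refine Finset.prod_eq_one fun x hx => ?_
      rw [if_pos (h1 x (Finset.mem_filter.1 hx).2)]
    · rw [if_neg h1]
      push Not at h1
      obtain ⟨x, hx, hk⟩ := h1
      exact Finset.prod_eq_zero (Finset.mem_filter.2 ⟨Finset.mem_univ x, hx⟩) (if_neg hk)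
  rwa [e] at h1

end pd

section mono

variable {V : Type} [Fintype V] {E : Type} [Fintype E]
variable {D : (V → ℤ) →+ (E → ℤ)} {J K : E → ℝ} {m : V → ℝ} {X : Set V}

/-- the inductive statement -/
theorem mono_pd_cos (D : (V → ℤ) →+ (E → ℤ)) (hJ : ∀ e, 0 ≤ J e) (hm : ∀ x, 0 < m x)
    (X : Set V) {F : (V → ℤ) → ℝ} (hF : Inc F) {ψ : (V → ℤ) → ℝ} (hψ : PD ψ) (τ : V → ℝ) :
    SS D J m X (fun h => F h * (ψ h * Real.cos (lf τ h))) * SS D J m X (fun _ => 1) ≤
      SS D J m X F * SS D J m X fun h => ψ h * Real.cos (lf τ h) := by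
  induction hψ generalizing τ with
  | one => simpa only [one_mul] using inc_cos D hJ hm X hF τ
  | @mul ψ hψ μ hμ r ih =>
    have gψ := hψ.gr
    have s1 : ∀ ρ : V → ℝ, Summable fun h => |bw D J m X h *
        (F h * (ψ h * Real.cos (lf ρ h)))| := fun ρ =>
      bw_summable hJ hm (hF.1.mul (gψ.mul (gr_cos ρ)))
    have s2 : ∀ ρ : V → ℝ, Summable fun h => |bw D J m X h * (ψ h * Real.cos (lf ρ h))| :=
      fun ρ => bw_summable hJ hm (gψ.mul (gr_cos ρ))
    obtain ⟨i1, f1⟩ := fub (s1 τ) μ r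
    obtain ⟨i2, f2⟩ := fub (s2 τ) μ r
    have e1 : SS D J m X (fun h => F h * (ψ h * mx μ r h * Real.cos (lf τ h))) =
        ∫ t, (∑' h, bw D J m X h * (F h * (ψ h * Real.cos (lf τ h))) *
          Real.cos (t * lf r h)) ∂μ := by
      rw [f1]
      exact tsum_congr fun h => by ring
    have e2 : SS D J m X (fun h => ψ h * mx μ r h * Real.cos (lf τ h)) =
        ∫ t, (∑' h, bw D J m X h * (ψ h * Real.cos (lf τ h)) * Real.cos (t * lf r h)) ∂μ := by
      rw [f2]
      exact tsum_congr fun h => by ring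
    rw [e1, e2, ← integral_mul_const, ← integral_const_mul]
    refine integral_mono (i1.mul_const _) (i2.const_mul _) fun t => ?_
    have hcos : ∀ h : V → ℤ, Real.cos (lf τ h) * Real.cos (t * lf r h) =
        1 / 2 * (Real.cos (lf ((fun x => t * r x) + τ) h) +
          Real.cos (lf ((fun x => t * r x) - τ) h)) := by
      intro h
      rw [lf_radd, lf_rsub, lf_rsmul, Real.cos_add, Real.cos_sub]
      ring
    have t1 : ∑' h, bw D J m X h * (F h * (ψ h * Real.cos (lf τ h))) * Real.cos (t * lf r h) =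
        1 / 2 * (SS D J m X (fun h => F h * (ψ h * Real.cos (lf ((fun x => t * r x) + τ) h))) +
          SS D J m X (fun h => F h * (ψ h * Real.cos (lf ((fun x => t * r x) - τ) h)))) := by
      unfold SS
      rw [← (s1 _).of_abs.tsum_add (s1 _).of_abs, ← tsum_mul_left]
      refine tsum_congr fun h => ?_
      linear_combination (bw D J m X h * F h * ψ h) * hcos h
    have t2 : ∑' h, bw D J m X h * (ψ h * Real.cos (lf τ h)) * Real.cos (t * lf r h) =
        1 / 2 * (SS D J m X (fun h => ψ h * Real.cos (lf ((fun x => t * r x) + τ) h)) +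
          SS D J m X (fun h => ψ h * Real.cos (lf ((fun x => t * r x) - τ) h))) := by
      unfold SS
      rw [← (s2 _).of_abs.tsum_add (s2 _).of_abs, ← tsum_mul_left]
      refine tsum_congr fun h => ?_
      linear_combination (bw D J m X h * ψ h) * hcos h
    simp only
    rw [t1, t2]
    have h3 := ih ((fun x => t * r x) + τ)
    have h4 := ih ((fun x => t * r x) - τ)
    linarith

/-- **MONO**: factors in `PD` lower the increasing observables. -/
theorem mono_pd (D : (V → ℤ) →+ (E → ℤ)) (hJ : ∀ e, 0 ≤ J e) (hm : ∀ x, 0 < m x)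
    (X : Set V) {F : (V → ℤ) → ℝ} (hF : Inc F) {ψ : (V → ℤ) → ℝ} (hψ : PD ψ) :
    SS D J m X (fun h => F h * ψ h) * SS D J m X (fun _ => 1) ≤
      SS D J m X F * SS D J m X ψ := by
  have h := mono_pd_cos D hJ hm X hF hψ 0
  have e : ∀ h : V → ℤ, Real.cos (lf (0 : V → ℝ) h) = 1 := fun h => by
    unfold lf; simp
  simpa only [e, mul_one] using h

/-- **MONO**: increasing observables increase with the couplings. -/
theorem mono_J (D : (V → ℤ) →+ (E → ℤ)) (hJ : ∀ e, 0 ≤ J e) (hK : ∀ e, 0 ≤ K e)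
    (hm : ∀ x, 0 < m x) (X : Set V) {F : (V → ℤ) → ℝ} (hF : Inc F) :
    SS D J m X F * SS D (J + K) m X (fun _ => 1) ≤
      SS D (J + K) m X F * SS D J m X fun _ => 1 := by
  have hJK : ∀ e, 0 ≤ (J + K) e := fun e => add_nonneg (hJ e) (hK e)
  obtain ⟨gF, φ, gφ, hφ⟩ := hF
  have h0 := dupM (K := K) D hJ hK hm X (φ := φ) gφ (σ := -1) (by simp)
  have aA := bw_summable (D := D) (X := X) hJK hm (Gr.one (V := V))
  have aB := bw_summable (D := D) (X := X) hJ hm (Gr.one (V := V))
  have aAF := bw_summable (D := D) (X := X) hJK hm gF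
  have aBF := bw_summable (D := D) (X := X) hJ hm gF
  have h1 := (((hasSum_mul_pair aAF aB).sub (hasSum_mul_pair aA aBF)).sub
    (hasSum_mul_pair aBF aA)).add (hasSum_mul_pair aB aAF)
  have e : ∀ x : (V → ℤ) × (V → ℤ), (bw D (J + K) m X x.1 * bw D J m X x.2 +
      -1 * (bw D J m X x.1 * bw D (J + K) m X x.2)) * (φ (x.1 + x.2) * φ (x.1 - x.2)) =
      bw D (J + K) m X x.1 * F x.1 * (bw D J m X x.2 * 1) -
        bw D (J + K) m X x.1 * 1 * (bw D J m X x.2 * F x.2) -
        bw D J m X x.1 * F x.1 * (bw D (J + K) m X x.2 * 1) +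
        bw D J m X x.1 * 1 * (bw D (J + K) m X x.2 * F x.2) := by
    intro x
    rw [← hφ x.1 x.2]
    ring
  rw [tsum_congr e, h1.tsum_eq] at h0
  unfold SS
  nlinarith [h0]

/-- the cosine transform is nonnegative -/
theorem cos_nonneg (D : (V → ℤ) →+ (E → ℤ)) (hJ : ∀ e, 0 ≤ J e) (hm : ∀ x, 0 < m x)
    (X : Set V) (r : V → ℝ) : 0 ≤ SS D J m X fun h => Real.cos (lf r h) := by
  have h0 := dupM (K := 0) D hJ (fun _ => le_rfl) hm X
    (φ := fun h => Real.cos (lf (fun x => 1 / 2 * r x) h)) (gr_cos _) (σ := 0) (by simp)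
  rw [add_zero] at h0
  have a1 := bw_summable (D := D) (X := X) hJ hm (Gr.one (V := V))
  have aC := bw_summable (D := D) (X := X) hJ hm (gr_cos r)
  have h1 := ((hasSum_mul_pair aC a1).add (hasSum_mul_pair a1 aC)).mul_left (1 / 2)
  have e : ∀ x : (V → ℤ) × (V → ℤ), (bw D J m X x.1 * bw D J m X x.2 +
      0 * (bw D J m X x.1 * bw D J m X x.2)) *
      (Real.cos (lf (fun x => 1 / 2 * r x) (x.1 + x.2)) *
        Real.cos (lf (fun x => 1 / 2 * r x) (x.1 - x.2))) =
      1 / 2 * (bw D J m X x.1 * Real.cos (lf r x.1) * (bw D J m X x.2 * 1) +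
        bw D J m X x.1 * 1 * (bw D J m X x.2 * Real.cos (lf r x.2))) := by
    intro x
    rw [lf_rsmul, lf_rsmul, lf_add, lf_sub]
    have e1 := Real.cos_add ((lf r x.1 + lf r x.2) / 2) ((lf r x.1 - lf r x.2) / 2)
    have e2 := Real.cos_sub ((lf r x.1 + lf r x.2) / 2) ((lf r x.1 - lf r x.2) / 2)
    rw [show (lf r x.1 + lf r x.2) / 2 + (lf r x.1 - lf r x.2) / 2 = lf r x.1 by ring] at e1
    rw [show (lf r x.1 + lf r x.2) / 2 - (lf r x.1 - lf r x.2) / 2 = lf r x.2 by ring] at e2
    rw [show 1 / 2 * (lf r x.1 + lf r x.2) = (lf r x.1 + lf r x.2) / 2 by ring,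
      show 1 / 2 * (lf r x.1 - lf r x.2) = (lf r x.1 - lf r x.2) / 2 by ring]
    linear_combination (-(1 / 2) * bw D J m X x.1 * bw D J m X x.2) * (e1 + e2)
  rw [tsum_congr e, h1.tsum_eq] at h0
  have hZ : 0 < SS D J m X fun _ => 1 := by
    have hs : Summable fun h => bw D J m X h * 1 := a1.of_abs
    refine lt_of_lt_of_le ?_ (hs.le_tsum 0 fun h _ => by
      rw [mul_one]; exact bw_nonneg hJ h)
    unfold bw
    rw [mul_one, iX_zero, mul_one]
    refine mul_pos ?_ (ga_pos _ _)
    unfold W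
    rw [map_zero]
    exact Finset.prod_pos fun e _ => wI_zero_pos (hJ e)
  by_contra hneg
  push Not at hneg
  have h3 : SS D J m X (fun h => Real.cos (lf r h)) * SS D J m X (fun _ => 1) < 0 :=
    mul_neg_of_neg_of_pos hneg hZ
  unfold SS at h3
  nlinarith [h0, h3]

/-- the partition function is positive -/
theorem SS_one_pos (D : (V → ℤ) →+ (E → ℤ)) (hJ : ∀ e, 0 ≤ J e) (hm : ∀ x, 0 < m x)
    (X : Set V) : 0 < SS D J m X fun _ => 1 := by
  have a1 := bw_summable (D := D) (X := X) hJ hm (Gr.one (V := V))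
  have hs : Summable fun h => bw D J m X h * 1 := a1.of_abs
  refine lt_of_lt_of_le ?_ (hs.le_tsum 0 fun h _ => by
    rw [mul_one]; exact bw_nonneg hJ h)
  unfold bw
  rw [mul_one, iX_zero, mul_one]
  refine mul_pos ?_ (ga_pos _ _)
  unfold W
  rw [map_zero]
  exact Finset.prod_pos fun e _ => wI_zero_pos (hJ e)

end mono

end Vale.Agent.P159.TM.H708
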