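import Vale.Agent.P159.TM.H22.Dup
import Vale.Agent.P159.TM.H870.Strip
import Mathlib.Probability.Distributions.Gaussian.Real

/-!
Row MONO of P159: massive integer heights `V → ℤ` with arbitrary integer linear forms `D`,
couplings `J`, masses `m > 0`, hard pins on a set `X`.  Moments decrease under every additional
factor which is a product of mixtures of cosines (edges, pins, masses, hard pins), and increase
with the couplings.
-/

open MeasureTheory Filter Topology

namespace Vale.Agent.P159.TM.H708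

open Vale.Agent.P159 Vale.Agent.P159.H353 Vale.Agent.P159.R2.H254 Vale.Agent.P159.T1.H934
  Vale.Agent.P159.TM.H22

section ind

open Classical in
/-- heights vanishing on `X` -/
noncomputable def iX {V : Type} (X : Set V) (h : V → ℤ) : ℝ := if ∀ x ∈ X, h x = 0 then 1 else 0

variable {V : Type}

lemma iX_nonneg (X : Set V) (h : V → ℤ) : 0 ≤ iX X h := by
  unfold iX; split_ifs <;> norm_num

lemma iX_le (X : Set V) (h : V → ℤ) : iX X h ≤ 1 := by
  unfold iX; split_ifs <;> norm_num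

lemma iX_zero (X : Set V) : iX X 0 = 1 := by
  unfold iX; rw [if_pos]; intro x _; rfl

lemma iX_split (X : Set V) (h k : V → ℤ) : iX X h * iX X k = iX X (h + k) * iX X (h - k) := by
  classical
  unfold iX
  by_cases h1 : ∀ x ∈ X, h x = 0
  · by_cases h2 : ∀ x ∈ X, k x = 0
    · rw [if_pos h1, if_pos h2, if_pos, if_pos]
      · intro x hx
        simp [h1 x hx, h2 x hx]
      · intro x hx
        simp [h1 x hx, h2 x hx]
    · rw [if_neg h2, mul_zero]
      push Not at h2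
      obtain ⟨x, hx, hk⟩ := h2
      rw [if_neg (c := ∀ x ∈ X, (h + k) x = 0), zero_mul]
      intro h3
      apply hk
      have := h3 x hx
      rw [Pi.add_apply, h1 x hx, zero_add] at this
      exact this
  · rw [if_neg h1, zero_mul]
    push Not at h1
    obtain ⟨x, hx, hk⟩ := h1
    by_cases h3 : ∀ x ∈ X, (h + k) x = 0
    · rw [if_neg (c := ∀ x ∈ X, (h - k) x = 0), mul_zero]
      intro h4
      have h5 := h3 x hx
      have h6 := h4 x hx
      rw [Pi.add_apply] at h5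
      rw [Pi.sub_apply] at h6
      omega
    · rw [if_neg h3, zero_mul]

lemma no2 (h : V → ℤ) (hh : h + h = 0) : h = 0 := by
  funext x
  have := congrFun hh x
  simp only [Pi.add_apply, Pi.zero_apply] at this ⊢
  omega

end ind

section base

variable {V : Type} [Fintype V]

/-- the mass term -/
noncomputable def ga (m : V → ℝ) (h : V → ℤ) : ℝ := Real.exp (-(∑ x, m x / 2 * (h x : ℝ) ^ 2))

/-- real linear functional of the heights -/
noncomputable def lf (r : V → ℝ) (h : V → ℤ) : ℝ := ∑ x, r x * (h x : ℝ)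

lemma ga_pos (m : V → ℝ) (h : V → ℤ) : 0 < ga m h := Real.exp_pos _

lemma ga_split (m : V → ℝ) (h k : V → ℤ) :
    ga m h * ga m k = ga (fun x => m x / 2) (h + k) * ga (fun x => m x / 2) (h - k) := by
  unfold ga
  rw [← Real.exp_add, ← Real.exp_add]
  congr 1
  rw [← neg_add, ← neg_add, ← Finset.sum_add_distrib, ← Finset.sum_add_distrib]
  congr 1
  refine Finset.sum_congr rfl fun x _ => ?_
  simp only [Pi.add_apply, Pi.sub_apply]
  push_cast
  ring

lemma lf_add (r : V → ℝ) (h k : V → ℤ) : lf r (h + k) = lf r h + lf r k := by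
  unfold lf
  rw [← Finset.sum_add_distrib]
  refine Finset.sum_congr rfl fun x _ => ?_
  rw [Pi.add_apply]
  push_cast
  ring

lemma lf_sub (r : V → ℝ) (h k : V → ℤ) : lf r (h - k) = lf r h - lf r k := by
  unfold lf
  rw [← Finset.sum_sub_distrib]
  refine Finset.sum_congr rfl fun x _ => ?_
  rw [Pi.sub_apply]
  push_cast
  ring

lemma lf_neg (r : V → ℝ) (h : V → ℤ) : lf r (-h) = -lf r h := by
  unfold lf
  rw [← Finset.sum_neg_distrib]
  refine Finset.sum_congr rfl fun x _ => ?_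
  rw [Pi.neg_apply]
  push_cast
  ring

lemma lf_radd (r q : V → ℝ) (h : V → ℤ) : lf (r + q) h = lf r h + lf q h := by
  unfold lf
  rw [← Finset.sum_add_distrib]
  refine Finset.sum_congr rfl fun x _ => ?_
  rw [Pi.add_apply]
  ring

lemma lf_rsub (r q : V → ℝ) (h : V → ℤ) : lf (r - q) h = lf r h - lf q h := by
  unfold lf
  rw [← Finset.sum_sub_distrib]
  refine Finset.sum_congr rfl fun x _ => ?_
  rw [Pi.sub_apply]
  ring

lemma lf_rsmul (t : ℝ) (r : V → ℝ) (h : V → ℤ) : lf (fun x => t * r x) h = t * lf r h := by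
  unfold lf
  rw [Finset.mul_sum]
  exact Finset.sum_congr rfl fun x _ => by ring

lemma lf_zero (r : V → ℝ) : lf r 0 = 0 := by
  unfold lf; simp

/-! ### growth -/

/-- exponential growth -/
def Gr (F : (V → ℤ) → ℝ) : Prop :=
  ∃ A : ℝ, ∃ c : V → ℝ, ∀ h, |F h| ≤ A * Real.exp (∑ x, c x * |(h x : ℝ)|)

lemma Gr.mul {F G : (V → ℤ) → ℝ} (hF : Gr F) (hG : Gr G) : Gr fun h => F h * G h := by
  obtain ⟨A, c, hA⟩ := hF
  obtain ⟨B, d, hB⟩ := hG
  refine ⟨A * B, c + d, fun h => ?_⟩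
  have e : ∑ x, (c + d) x * |(h x : ℝ)| = ∑ x, c x * |(h x : ℝ)| + ∑ x, d x * |(h x : ℝ)| := by
    rw [← Finset.sum_add_distrib]
    exact Finset.sum_congr rfl fun x _ => by rw [Pi.add_apply]; ring
  rw [abs_mul, e, Real.exp_add]
  calc |F h| * |G h| ≤ (A * Real.exp (∑ x, c x * |(h x : ℝ)|)) *
        (B * Real.exp (∑ x, d x * |(h x : ℝ)|)) :=
        mul_le_mul (hA h) (hB h) (abs_nonneg _) ((abs_nonneg _).trans (hA h))
    _ = _ := by ring

lemma Gr.of_bdd {F : (V → ℤ) → ℝ} {C : ℝ} (hF : ∀ h, |F h| ≤ C) : Gr F :=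
  ⟨C, 0, fun h => by simpa using hF h⟩

lemma Gr.const (a : ℝ) : Gr fun _ : V → ℤ => a := Gr.of_bdd (C := |a|) fun _ => le_rfl

lemma Gr.one : Gr fun _ : V → ℤ => (1 : ℝ) := Gr.const 1

lemma abs_lf_le (r : V → ℝ) (h : V → ℤ) : |lf r h| ≤ ∑ x, |r x| * |(h x : ℝ)| := by
  unfold lf
  refine (Finset.abs_sum_le_sum_abs _ _).trans (Finset.sum_le_sum fun x _ => ?_)
  rw [abs_mul]

lemma Gr.of_exp {F : (V → ℤ) → ℝ} {A : ℝ} (hA : 0 ≤ A) (r : V → ℝ)
    (hF : ∀ h, |F h| ≤ A * Real.exp |lf r h|) : Gr F :=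
  ⟨A, fun x => |r x|, fun h => (hF h).trans (mul_le_mul_of_nonneg_left
    (Real.exp_le_exp.2 (abs_lf_le r h)) hA)⟩

lemma gr_cos (r : V → ℝ) : Gr fun h => Real.cos (lf r h) :=
  Gr.of_bdd (C := 1) fun _ => Real.abs_cos_le_one _

lemma gr_sin (r : V → ℝ) : Gr fun h => Real.sin (lf r h / 2) :=
  Gr.of_bdd (C := 1) fun _ => Real.abs_sin_le_one _

lemma gr_exp (r : V → ℝ) : Gr fun h => Real.exp (lf r h) :=
  Gr.of_exp zero_le_one r fun h => by
    rw [abs_of_pos (Real.exp_pos _), one_mul]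
    exact Real.exp_le_exp.2 (le_abs_self _)

lemma gr_cosh (r : V → ℝ) : Gr fun h => Real.cosh (lf r h) :=
  Gr.of_exp zero_le_one r fun h => by
    rw [abs_of_pos (Real.cosh_pos _), one_mul, ← Real.cosh_abs, Real.cosh_eq]
    have : Real.exp (-|lf r h|) ≤ Real.exp |lf r h| :=
      Real.exp_le_exp.2 (by linarith [abs_nonneg (lf r h)])
    linarith

lemma gr_sinh (r : V → ℝ) : Gr fun h => Real.sinh (lf r h / 2) :=
  Gr.of_exp zero_le_one r fun h => by
    rw [one_mul, Real.sinh_eq]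
    have h1 : Real.exp (lf r h / 2) ≤ Real.exp |lf r h| := by
      apply Real.exp_le_exp.2
      linarith [abs_nonneg (lf r h), le_abs_self (lf r h)]
    have h2 : Real.exp (-(lf r h / 2)) ≤ Real.exp |lf r h| := by
      apply Real.exp_le_exp.2
      linarith [abs_nonneg (lf r h), neg_le_abs (lf r h)]
    have h3 := Real.exp_pos (lf r h / 2)
    have h4 := Real.exp_pos (-(lf r h / 2))
    rw [abs_le]
    constructor <;> linarith

lemma gr_lf (r : V → ℝ) : Gr fun h => lf r h :=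
  Gr.of_exp zero_le_one r fun h => by
    rw [one_mul]
    have := Real.add_one_le_exp |lf r h|
    linarith

lemma summable_site {a : ℝ} (ha : 0 < a) (c : ℝ) :
    Summable fun k : ℤ => Real.exp (-(a / 2 * (k : ℝ) ^ 2)) * Real.exp (c * |(k : ℝ)|) := by
  have h1 := ((H870.summable_gauss (a := a / 2) (by positivity) (c / a)).mul_left
    (Real.exp (c ^ 2 / (2 * a)))).add ((H870.summable_gauss (a := a / 2) (by positivity)
      (-(c / a))).mul_left (Real.exp (c ^ 2 / (2 * a))))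
  refine Summable.of_nonneg_of_le (fun k => by positivity) (fun k => ?_) h1
  rw [← Real.exp_add, ← Real.exp_add, ← Real.exp_add]
  have e1 : c ^ 2 / (2 * a) + -(a / 2 * ((k : ℝ) - c / a) ^ 2) =
      -(a / 2 * (k : ℝ) ^ 2) + c * k := by
    field_simp
    ring
  have e2 : c ^ 2 / (2 * a) + -(a / 2 * ((k : ℝ) - -(c / a)) ^ 2) =
      -(a / 2 * (k : ℝ) ^ 2) + -(c * k) := by
    field_simp
    ring
  rw [e1, e2]
  rcases abs_cases (k : ℝ) with ⟨h, _⟩ | ⟨h, _⟩
  · rw [h]
    have := Real.exp_pos (-(a / 2 * (k : ℝ) ^ 2) + -(c * k))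
    linarith
  · rw [h, show c * -(k : ℝ) = -(c * k) by ring]
    have := Real.exp_pos (-(a / 2 * (k : ℝ) ^ 2) + c * k)
    linarith

lemma summable_ga {m : V → ℝ} (hm : ∀ x, 0 < m x) (c : V → ℝ) :
    Summable fun h : V → ℤ => ga m h * Real.exp (∑ x, c x * |(h x : ℝ)|) := by
  classical
  have h1 := H870.summable_pi_prod (V := V)
    (g := fun x k => Real.exp (-(m x / 2 * (k : ℝ) ^ 2)) * Real.exp (c x * |(k : ℝ)|))
    (fun x k => by positivity) fun x => summable_site (hm x) (c x)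
  refine h1.congr fun h => ?_
  rw [Finset.prod_mul_distrib, ← Real.exp_sum, ← Real.exp_sum, Finset.sum_neg_distrib]
  rfl

lemma summable_ga_mul {m : V → ℝ} (hm : ∀ x, 0 < m x) {F : (V → ℤ) → ℝ} (hF : Gr F) :
    Summable fun h : V → ℤ => |ga m h * F h| := by
  obtain ⟨A, c, hA⟩ := hF
  refine Summable.of_nonneg_of_le (fun _ => abs_nonneg _) (fun h => ?_)
    ((summable_ga hm c).mul_left A)
  rw [abs_mul, abs_of_pos (ga_pos m h)]
  calc ga m h * |F h| ≤ ga m h * (A * Real.exp (∑ x, c x * |(h x : ℝ)|)) :=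
        mul_le_mul_of_nonneg_left (hA h) (ga_pos m h).le
    _ = _ := by ring

end base

section model

variable {V : Type} [Fintype V] {E : Type} [Fintype E]

/-- the weight -/
noncomputable def bw (D : (V → ℤ) →+ (E → ℤ)) (J : E → ℝ) (m : V → ℝ) (X : Set V)
    (h : V → ℤ) : ℝ := W D J h * (ga m h * iX X h)

variable {D : (V → ℤ) →+ (E → ℤ)} {J K : E → ℝ} {m : V → ℝ} {X : Set V}

lemma bw_nonneg (hJ : ∀ e, 0 ≤ J e) (h : V → ℤ) : 0 ≤ bw D J m X h :=
  mul_nonneg (W_nonneg hJ h) (mul_nonneg (ga_pos m h).le (iX_nonneg X h))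

omit [Fintype V] in
lemma W_le (D : (V → ℤ) →+ (E → ℤ)) (hJ : ∀ e, 0 ≤ J e) (h : V → ℤ) :
    W D J h ≤ ∏ e, ∑' n, wI (J e) n :=
  Finset.prod_le_prod (fun e _ => wI_nonneg (hJ e) _) fun e _ =>
    (summable_wI (hJ e)).le_tsum _ fun n _ => wI_nonneg (hJ e) n

lemma bw_summable (hJ : ∀ e, 0 ≤ J e) (hm : ∀ x, 0 < m x) {F : (V → ℤ) → ℝ} (hF : Gr F) :
    Summable fun h => |bw D J m X h * F h| := by
  refine Summable.of_nonneg_of_le (fun _ => abs_nonneg _) (fun h => ?_)
    ((summable_ga_mul hm hF).mul_left (∏ e, ∑' n, wI (J e) n))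
  unfold bw
  have e : |W D J h * (ga m h * iX X h) * F h| = W D J h * (ga m h * iX X h * |F h|) := by
    rw [abs_mul, abs_mul, abs_mul, abs_of_nonneg (W_nonneg hJ h),
      abs_of_nonneg (iX_nonneg X h), abs_of_pos (ga_pos m h), mul_assoc]
  rw [e, abs_mul, abs_of_pos (ga_pos m h)]
  refine mul_le_mul (W_le D hJ h) ?_ (by have := iX_nonneg X h; have := (ga_pos m h).le; positivity)
    (Finset.prod_nonneg fun e _ => tsum_nonneg fun n => wI_nonneg (hJ e) n)
  refine mul_le_mul_of_nonneg_right ?_ (abs_nonneg _)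
  exact mul_le_of_le_one_right (ga_pos m h).le (iX_le X h)

/-- duplication inequality for the massive model -/
theorem dupM (D : (V → ℤ) →+ (E → ℤ)) (hJ : ∀ e, 0 ≤ J e) (hK : ∀ e, 0 ≤ K e)
    (hm : ∀ x, 0 < m x) (X : Set V) {φ : (V → ℤ) → ℝ} (hφ : Gr φ) {σ : ℝ} (hσ : |σ| ≤ 1) :
    0 ≤ ∑' x : (V → ℤ) × (V → ℤ), (bw D (J + K) m X x.1 * bw D J m X x.2 +
      σ * (bw D J m X x.1 * bw D (J + K) m X x.2)) * (φ (x.1 + x.2) * φ (x.1 - x.2)) := by
  have hm2 : ∀ x, 0 < m x / 2 := fun x => by have := hm x; positivity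
  have hg : Summable fun h : V → ℤ => |ga (fun x => m x / 2) h * (iX X h * φ h)| :=
    summable_ga_mul hm2 (Gr.mul (Gr.of_bdd (C := 1) fun h => by
      rw [abs_of_nonneg (iX_nonneg X h)]; exact iX_le X h) hφ)
  have h0 := dup_sum (H := V → ℤ) no2 D hJ hK hg hσ
  refine h0.trans_eq (tsum_congr fun x => ?_)
  have e1 := ga_split m x.1 x.2
  have e2 := iX_split X x.1 x.2
  unfold bw
  linear_combination (-(W D (J + K) x.1 * W D J x.2 + σ * (W D J x.1 * W D (J + K) x.2)) *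
    (φ (x.1 + x.2) * φ (x.1 - x.2)) * (iX X (x.1 + x.2) * iX X (x.1 - x.2))) * e1 -
    ((W D (J + K) x.1 * W D J x.2 + σ * (W D J x.1 * W D (J + K) x.2)) *
    (φ (x.1 + x.2) * φ (x.1 - x.2)) * (ga m x.1 * ga m x.2)) * e2

/-- sum of `F` against the weight -/
noncomputable def SS (D : (V → ℤ) →+ (E → ℤ)) (J : E → ℝ) (m : V → ℝ) (X : Set V)
    (F : (V → ℤ) → ℝ) : ℝ := ∑' h, bw D J m X h * F h

/-- increasing observables: exponential and second moments -/
def Inc (F : (V → ℤ) → ℝ) : Prop :=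
  Gr F ∧ ∃ φ : (V → ℤ) → ℝ, Gr φ ∧ ∀ h k, F h - F k = φ (h + k) * φ (h - k)

lemma inc_cosh (r : V → ℝ) : Inc fun h => Real.cosh (lf r h) := by
  refine ⟨gr_cosh r, fun h => √2 * Real.sinh (lf r h / 2), (Gr.const (√2)).mul (gr_sinh r),
    fun h k => ?_⟩
  simp only
  rw [lf_add, lf_sub]
  have e1 := Real.cosh_add ((lf r h + lf r k) / 2) ((lf r h - lf r k) / 2)
  have e2 := Real.cosh_sub ((lf r h + lf r k) / 2) ((lf r h - lf r k) / 2)
  rw [show (lf r h + lf r k) / 2 + (lf r h - lf r k) / 2 = lf r h by ring] at e1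
  rw [show (lf r h + lf r k) / 2 - (lf r h - lf r k) / 2 = lf r k by ring] at e2
  have e3 : √2 * √2 = (2 : ℝ) := Real.mul_self_sqrt (by norm_num)
  linear_combination e1 - e2 - (Real.sinh ((lf r h + lf r k) / 2) *
    Real.sinh ((lf r h - lf r k) / 2)) * e3

lemma inc_sq (r : V → ℝ) : Inc fun h => (lf r h) ^ 2 := by
  refine ⟨?_, fun h => lf r h, gr_lf r, fun h k => ?_⟩
  · have := (gr_lf r).mul (gr_lf r)
    simpa only [← pow_two] using this
  · simp only
    rw [lf_add, lf_sub]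
    ring

/-- **Covariance inequality**: an increasing observable against a cosine. -/
theorem inc_cos (D : (V → ℤ) →+ (E → ℤ)) (hJ : ∀ e, 0 ≤ J e) (hm : ∀ x, 0 < m x) (X : Set V)
    {F : (V → ℤ) → ℝ} (hF : Inc F) (r : V → ℝ) :
    SS D J m X (fun h => F h * Real.cos (lf r h)) * SS D J m X (fun _ => 1) ≤
      SS D J m X F * SS D J m X fun h => Real.cos (lf r h) := by
  obtain ⟨gF, φ, gφ, hφ⟩ := hF
  have h0 := dupM (K := 0) D hJ (fun _ => le_rfl) hm X
    (φ := fun h => φ h * Real.sin (lf r h / 2)) (gφ.mul (gr_sin r)) (σ := 0) (by simp)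
  rw [add_zero] at h0
  have a1 := bw_summable (D := D) (X := X) hJ hm (Gr.one (V := V))
  have aF := bw_summable (D := D) (X := X) hJ hm gF
  have aC := bw_summable (D := D) (X := X) hJ hm (gr_cos r)
  have aFC := bw_summable (D := D) (X := X) hJ hm (gF.mul (gr_cos r))
  have h1 := (((hasSum_mul_pair aF aC).sub (hasSum_mul_pair aFC a1)).sub
    (hasSum_mul_pair a1 aFC)).add (hasSum_mul_pair aC aF)
  have h2 := h1.mul_left (1 / 2)
  have e : ∀ x : (V → ℤ) × (V → ℤ), (bw D J m X x.1 * bw D J m X x.2 +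
      0 * (bw D J m X x.1 * bw D J m X x.2)) *
      (φ (x.1 + x.2) * Real.sin (lf r (x.1 + x.2) / 2) *
        (φ (x.1 - x.2) * Real.sin (lf r (x.1 - x.2) / 2))) =
      1 / 2 * (bw D J m X x.1 * F x.1 * (bw D J m X x.2 * Real.cos (lf r x.2)) -
        bw D J m X x.1 * (F x.1 * Real.cos (lf r x.1)) * (bw D J m X x.2 * 1) -
        bw D J m X x.1 * 1 * (bw D J m X x.2 * (F x.2 * Real.cos (lf r x.2))) +
        bw D J m X x.1 * Real.cos (lf r x.1) * (bw D J m X x.2 * F x.2)) := by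
    intro x
    have h3 : Real.sin (lf r (x.1 + x.2) / 2) * Real.sin (lf r (x.1 - x.2) / 2) =
        (Real.cos (lf r x.2) - Real.cos (lf r x.1)) / 2 := by
      rw [lf_add, lf_sub, Real.cos_sub_cos]
      have e1 : (lf r x.2 + lf r x.1) / 2 = (lf r x.1 + lf r x.2) / 2 := by ring
      have e2 : (lf r x.2 - lf r x.1) / 2 = -((lf r x.1 - lf r x.2) / 2) := by ring
      rw [e1, e2, Real.sin_neg]
      ring
    have h4 := hφ x.1 x.2
    have h5 : φ (x.1 + x.2) * Real.sin (lf r (x.1 + x.2) / 2) *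
        (φ (x.1 - x.2) * Real.sin (lf r (x.1 - x.2) / 2)) =
        (F x.1 - F x.2) * ((Real.cos (lf r x.2) - Real.cos (lf r x.1)) / 2) := by
      rw [← h3, h4]
      ring
    rw [h5]
    ring
  rw [tsum_congr e, h2.tsum_eq] at h0
  unfold SS
  nlinarith [h0]

end model

end Vale.Agent.P159.TM.H708
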